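import Mathlib
import Vale.Agent.P183.Defs
import Vale.Agent.P183.Main

namespace Vale.Agent.Results.P183.SourceRemoval

open Vale.Agent.P183

/-- (1) A lattice which is lower bounded over a representable lattice is representable;
(2) finite lower bounded and upper bounded lattices are representable;
(3) the finite lattice representation problem is equivalent to its restriction to source-free
lattices with source-free duals. -/
theorem result :
    (∀ (L : Type) [Lattice L] [Finite L] [Nonempty L] (J : Set L),
      (∀ q ∈ J, SupIrred q) → (∀ q r, q ∈ J → JoinDep q r → r ∈ J) →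
      (∀ q, q ∉ J → ¬ Relation.TransGen (JoinDep (L := L)) q q) →
      Representable (SpanOf J) → Representable L) ∧
    (∀ (L : Type) [Lattice L] [Finite L] [Nonempty L],
      LowerBounded L ∨ LowerBounded Lᵒᵈ → Representable L) ∧
    ((∀ (L : Type) [Lattice L] [Finite L] [Nonempty L], Representable L) ↔
      ∀ (L : Type) [Lattice L] [Finite L] [Nonempty L],
        SourceFree L → SourceFree Lᵒᵈ → Representable L) := by
  have lb : ∀ (M : Type) [Lattice M] [Finite M] [Nonempty M],
      LowerBounded M → Representable M := by
    intro M _ _ _ h
    cases nonempty_fintype M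
    let _ : OrderBot M := Fintype.toOrderBot M
    exact Main.representable_of_span ∅ (fun q hq => absurd hq (Set.notMem_empty q))
      (fun q _ hq => absurd hq (Set.notMem_empty q)) (fun q _ => h q)
      Main.representable_span_empty
  refine ⟨?_, ?_, ⟨fun h L _ _ _ _ _ => h L, fun h L _ _ _ => Main.reduction h _ L rfl⟩⟩
  · intro L _ _ _ J h1 h2 h3 h4
    cases nonempty_fintype L
    let _ : OrderBot L := Fintype.toOrderBot L
    exact Main.representable_of_span J h1 h2 h3 h4
  · intro L _ _ _ h
    rcases h with h | h
    · exact lb L h
    · exact Kurzweil.representable_dual (lb Lᵒᵈ h)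

end Vale.Agent.Results.P183.SourceRemoval
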